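import Mathlib
import Vale.Agent.Lib.P248.helper1.ConeDefs

/-!
Pool job P248-SPA (second copy, seat helper19): the polar about an interior point is the image
of the polar about the origin under a projective map.
-/

namespace Vale.Agent.Lib.P248.H19Y

open MeasureTheory Set
open scoped ENNReal
open Vale.Agent.Lib.P248.H1

theorem inner_lt_one_of_mem_interior {m : ℕ} (S : Set (EuclideanSpace ℝ (Fin m)))
    (z : EuclideanSpace ℝ (Fin m)) (hz : z ∈ interior S) (y : EuclideanSpace ℝ (Fin m))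
    (hy : y ∈ polarAt S 0) : inner ℝ z y < 1 := by
  by_cases hy0 : y = 0
  · rw [hy0, inner_zero_right]
    exact zero_lt_one
  · obtain ⟨ε, hε, hball⟩ := Metric.isOpen_iff.mp isOpen_interior z hz
    have hyn : 0 < ‖y‖ := norm_pos_iff.mpr hy0
    have hc : 0 < ε / (2 * ‖y‖) := by positivity
    have hxS : z + (ε / (2 * ‖y‖)) • y ∈ S := by
      apply interior_subset
      apply hball
      rw [Metric.mem_ball, dist_eq_norm, add_sub_cancel_left, norm_smul, Real.norm_eq_abs,
        abs_of_pos hc]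
      have h2 : ε / (2 * ‖y‖) * ‖y‖ = ε / 2 := by
        field_simp
      rw [h2]
      linarith
    have hy' : ∀ x ∈ S, inner ℝ (x - 0) y ≤ 1 := hy
    have h1 := hy' _ hxS
    rw [sub_zero, inner_add_left, real_inner_smul_left, real_inner_self_eq_norm_sq] at h1
    have hpos : 0 < ε / (2 * ‖y‖) * ‖y‖ ^ 2 := by positivity
    linarith

theorem polarAt_eq_image {m : ℕ} (S : Set (EuclideanSpace ℝ (Fin m)))
    (z : EuclideanSpace ℝ (Fin m)) (hz : z ∈ interior S) (hmz : -z ∈ S) :
    polarAt S z =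
      (fun y : EuclideanSpace ℝ (Fin m) => (1 - inner ℝ z y)⁻¹ • y) '' polarAt S 0 := by
  apply Set.Subset.antisymm
  · intro y' hy'
    have hy'' : ∀ x ∈ S, inner ℝ (x - z) y' ≤ 1 := hy'
    have h1 := hy'' (-z) hmz
    have h2 : inner ℝ (-z - z) y' = -2 * inner ℝ z y' := by
      rw [inner_sub_left, inner_neg_left]
      ring
    rw [h2] at h1
    have hu1 : 0 < 1 + inner ℝ z y' := by linarith
    refine ⟨(1 + inner ℝ z y')⁻¹ • y', ?_, ?_⟩
    · change ∀ x ∈ S, inner ℝ (x - 0) ((1 + inner ℝ z y')⁻¹ • y') ≤ 1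
      intro x hx
      have h3 := hy'' x hx
      rw [inner_sub_left] at h3
      rw [sub_zero, real_inner_smul_right, inv_mul_le_iff₀ hu1]
      linarith
    · change (1 - inner ℝ z ((1 + inner ℝ z y')⁻¹ • y'))⁻¹ • ((1 + inner ℝ z y')⁻¹ • y') = y'
      have h4 : 1 - (1 + inner ℝ z y')⁻¹ * inner ℝ z y' = (1 + inner ℝ z y')⁻¹ := by
        field_simp
        ring
      rw [real_inner_smul_right, h4, inv_inv, smul_smul, mul_inv_cancel₀ hu1.ne', one_smul]
  · rintro _ ⟨y, hy, rfl⟩
    have ht : inner ℝ z y < 1 := inner_lt_one_of_mem_interior S z hz y hy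
    have hy0 : ∀ x ∈ S, inner ℝ (x - 0) y ≤ 1 := hy
    change ∀ x ∈ S, inner ℝ (x - z) ((1 - inner ℝ z y)⁻¹ • y) ≤ 1
    intro x hx
    have h1 := hy0 x hx
    rw [sub_zero] at h1
    have hpos : 0 < 1 - inner ℝ z y := by linarith
    rw [real_inner_smul_right, inner_sub_left, inv_mul_le_iff₀ hpos]
    linarith

end Vale.Agent.Lib.P248.H19Y
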