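import Mathlib
import Vale.Agent.Lib.P248.helper37.Q2Defs

/-!
P248 pool leaf J8 (helper19): transfer of the Q2 inequality to Euclidean space

`q2_euclid` deduces the inequality for an anti-blocking body in `EuclideanSpace ℝ (Fin n)` and an
arbitrary interior point `z` from the same inequality on `Fin n → ℝ` for admissible pairs.
-/

open MeasureTheory Set

namespace Vale.Agent.Lib.P248.H19Q

open Vale.Agent.Lib.P248.H37 Vale.Agent.Lib.P248.H37Q

/-- From an interior point one can move a little in any direction and stay in the set. -/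
lemma exists_step {n : ℕ} {A : Set (EuclideanSpace ℝ (Fin n))} {z : EuclideanSpace ℝ (Fin n)}
    (hz : z ∈ interior A) (v : EuclideanSpace ℝ (Fin n)) :
    ∃ ε : ℝ, 0 < ε ∧ z + ε • v ∈ A := by
  have hcont : Continuous (fun t : ℝ => z + t • v) :=
    continuous_const.add (continuous_id.smul continuous_const)
  have hopen : IsOpen ((fun t : ℝ => z + t • v) ⁻¹' interior A) :=
    isOpen_interior.preimage hcont
  have h0 : (0 : ℝ) ∈ (fun t : ℝ => z + t • v) ⁻¹' interior A := by
    show z + (0 : ℝ) • v ∈ interior A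
    rw [zero_smul, add_zero]
    exact hz
  obtain ⟨δ, hδ, hball⟩ := Metric.isOpen_iff.1 hopen 0 h0
  refine ⟨δ / 2, by positivity, interior_subset (hball ?_)⟩
  rw [Metric.mem_ball, dist_zero_right, Real.norm_eq_abs, abs_of_pos (by positivity)]
  linarith

/-- J8: transfer from `Fin n → ℝ` to `EuclideanSpace ℝ (Fin n)`. -/
theorem q2_euclid {n : ℕ}
    (hpi : ∀ (A : Set (Fin n → ℝ)) (z : Fin n → ℝ), Adm A z →
      ENNReal.ofReal (((n : ℝ) + 1) ^ (n + 1) / (n.factorial : ℝ) ^ 2) ≤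
        volume A * volume (polZ A z))
    (A : Set (EuclideanSpace ℝ (Fin n))) (hconv : Convex ℝ A) (hcomp : IsCompact A)
    (hnn : ∀ x ∈ A, ∀ i, 0 ≤ x i)
    (hdown : ∀ x ∈ A, ∀ y : EuclideanSpace ℝ (Fin n), (∀ i, 0 ≤ y i ∧ y i ≤ x i) → y ∈ A)
    (z : EuclideanSpace ℝ (Fin n)) (hz : z ∈ interior A) :
    ENNReal.ofReal (((n : ℝ) + 1) ^ (n + 1) / (n.factorial : ℝ) ^ 2) ≤
      volume A * volume {y : EuclideanSpace ℝ (Fin n) | ∀ x ∈ A, inner ℝ (x - z) y ≤ 1} := by
  obtain ⟨A', hA'def⟩ : ∃ A' : Set (Fin n → ℝ), A' = WithLp.toLp 2 ⁻¹' A := ⟨_, rfl⟩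
  obtain ⟨z', hz'def⟩ : ∃ z' : Fin n → ℝ, z' = WithLp.ofLp z := ⟨_, rfl⟩
  have hz'i : ∀ i, z' i = z i := fun i => by rw [hz'def]
  have hmem : ∀ w : Fin n → ℝ, w ∈ A' ↔ WithLp.toLp 2 w ∈ A := fun w => by rw [hA'def]; rfl
  -- positivity of the coordinates of `z`
  have hpos : ∀ i, 0 < z i := by
    intro i
    obtain ⟨ε, hε, hmemA⟩ := exists_step hz (-(EuclideanSpace.single i (1 : ℝ)))
    have h1 := hnn _ hmemA i
    have e : (z + ε • -(EuclideanSpace.single i (1 : ℝ))) i = z i - ε := by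
      simp [sub_eq_add_neg]
    rw [e] at h1
    linarith
  -- room above `z`
  have hroom : ∃ ε : ℝ, 0 < ε ∧ (fun i => z' i + ε) ∈ A' := by
    obtain ⟨ε, hε, hmemA⟩ := exists_step hz (WithLp.toLp 2 (fun _ : Fin n => (1 : ℝ)))
    refine ⟨ε, hε, ?_⟩
    rw [hmem]
    have e : WithLp.toLp 2 (fun i => z' i + ε)
        = z + ε • WithLp.toLp 2 (fun _ : Fin n => (1 : ℝ)) := by
      ext i
      simp [hz'i]
    rw [e]
    exact hmemA
  have hA'conv : Convex ℝ A' := by
    intro w hw w' hw' a b ha hb hab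
    rw [hmem] at hw hw' ⊢
    rw [WithLp.toLp_add, WithLp.toLp_smul, WithLp.toLp_smul]
    exact hconv hw hw' ha hb hab
  have hA'nn : ∀ x ∈ A', ∀ i, 0 ≤ x i := by
    intro x hx i
    rw [hmem] at hx
    simpa using hnn _ hx i
  have hA'down : ∀ x ∈ A', ∀ y : Fin n → ℝ, (∀ i, 0 ≤ y i ∧ y i ≤ x i) → y ∈ A' := by
    intro x hx y hy
    rw [hmem] at hx ⊢
    exact hdown _ hx _ (fun i => by simpa using hy i)
  have hgood : Good A' := by
    refine ⟨?_, hA'conv, hA'nn, hA'down, ?_, ?_⟩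
    · rw [hA'def]
      exact hcomp.isClosed.preimage (PiLp.continuous_toLp 2 _)
    · obtain ⟨ε, hε, hmemA⟩ := hroom
      refine ⟨ε, hε, fun y hy => hA'down _ hmemA y (fun i => ⟨(hy i).1, ?_⟩)⟩
      have h1 := hpos i
      have h2 := hz'i i
      have h3 := (hy i).2
      show y i ≤ z' i + ε
      linarith
    · obtain ⟨R, hR⟩ := hcomp.isBounded.exists_norm_le
      refine ⟨R, fun x hx i => ?_⟩
      rw [hmem] at hx
      have h1 := hR _ hx
      have h2 : ‖(WithLp.toLp 2 x : EuclideanSpace ℝ (Fin n)) i‖ ≤ ‖(WithLp.toLp 2 x : EuclideanSpace ℝ (Fin n))‖ :=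
        PiLp.norm_apply_le _ i
      have h3 : (WithLp.toLp 2 x : EuclideanSpace ℝ (Fin n)) i = x i := rfl
      rw [h3, Real.norm_eq_abs] at h2
      exact (le_abs_self _).trans (h2.trans h1)
  have hadm : Adm A' z' := ⟨hgood, fun i => by rw [hz'i]; exact hpos i, hroom⟩
  have hmain := hpi A' z' hadm
  have hv1 : volume A' = volume A := by
    rw [hA'def]
    exact (PiLp.volume_preserving_toLp (Fin n)).measure_preimage
      hcomp.isClosed.measurableSet.nullMeasurableSet
  have hpolcl : IsClosed {y : EuclideanSpace ℝ (Fin n) | ∀ x ∈ A, inner ℝ (x - z) y ≤ 1} := by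
    have : {y : EuclideanSpace ℝ (Fin n) | ∀ x ∈ A, inner ℝ (x - z) y ≤ 1}
        = ⋂ x ∈ A, {y : EuclideanSpace ℝ (Fin n) | inner ℝ (x - z) y ≤ 1} := by
      ext y; simp
    rw [this]
    exact isClosed_biInter (fun x _ =>
      isClosed_le (continuous_const.inner continuous_id) continuous_const)
  have hpol : polZ A' z'
      = WithLp.toLp 2 ⁻¹' {y : EuclideanSpace ℝ (Fin n) | ∀ x ∈ A, inner ℝ (x - z) y ≤ 1} := by
    ext w
    constructor
    · intro h
      show ∀ x ∈ A, inner ℝ (x - z) (WithLp.toLp 2 w) ≤ 1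
      intro x hx
      have h1 := h (WithLp.ofLp x) (by rw [hmem]; simpa using hx)
      have e : inner ℝ (x - z) (WithLp.toLp 2 w) = ∑ i, ((WithLp.ofLp x) i - z' i) * w i := by
        rw [PiLp.inner_apply]
        apply Finset.sum_congr rfl
        intro i _
        simp [mul_comm, hz'i]
      rw [e]
      exact h1
    · intro h
      have h' : ∀ x ∈ A, inner ℝ (x - z) (WithLp.toLp 2 w) ≤ 1 := h
      show ∀ x ∈ A', ∑ i, (x i - z' i) * w i ≤ 1
      intro x hx
      have h1 := h' (WithLp.toLp 2 x) ((hmem x).1 hx)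
      have e : inner ℝ (WithLp.toLp 2 x - z) (WithLp.toLp 2 w) = ∑ i, (x i - z' i) * w i := by
        rw [PiLp.inner_apply]
        apply Finset.sum_congr rfl
        intro i _
        simp [mul_comm, hz'i]
      rw [e] at h1
      exact h1
  have hv2 : volume (polZ A' z')
      = volume {y : EuclideanSpace ℝ (Fin n) | ∀ x ∈ A, inner ℝ (x - z) y ≤ 1} := by
    rw [hpol]
    exact (PiLp.volume_preserving_toLp (Fin n)).measure_preimage
      hpolcl.measurableSet.nullMeasurableSet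
  rw [hv1, hv2] at hmain
  exact hmain

end Vale.Agent.Lib.P248.H19Q
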